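import Vale.Agent.P172.Cvx
import Vale.Agent.P198.I.Coc

/-! The hyperboloid model of hyperbolic 3-space is a proper CAT(-1) space. -/

namespace Vale.Agent.P172
open Set Real Vale.Agent.P198

theorem neg_le (x : H3) {v : Fin 4 → ℝ} (h : mink v x.1 = 0) :
    x.1 0 ^ 2 * mink v v ≤ -(v 1 ^ 2 + v 2 ^ 2 + v 3 ^ 2) := by
  obtain ⟨x, h1, h2⟩ := x
  simp only [mink] at h h1 ⊢
  have e : x 0 ^ 2 * (v 0 * v 0 - v 1 * v 1 - v 2 * v 2 - v 3 * v 3) =
      -(v 1 ^ 2 + v 2 ^ 2 + v 3 ^ 2) - ((v 1 * x 2 - v 2 * x 1) ^ 2 + (v 1 * x 3 - v 3 * x 1) ^ 2 +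
        (v 2 * x 3 - v 3 * x 2) ^ 2) := by
    linear_combination (v 0 * x 0 + v 1 * x 1 + v 2 * x 2 + v 3 * x 3) * h -
      (v 1 ^ 2 + v 2 ^ 2 + v 3 ^ 2) * h1
  rw [e]
  nlinarith [sq_nonneg (v 1 * x 2 - v 2 * x 1), sq_nonneg (v 1 * x 3 - v 3 * x 1),
    sq_nonneg (v 2 * x 3 - v 3 * x 2)]

theorem neg_nonpos (x : H3) {v : Fin 4 → ℝ} (h : mink v x.1 = 0) : mink v v ≤ 0 := by
  have h1 := neg_le x h
  have h2 : 0 < x.1 0 ^ 2 := pow_pos x.2.2 2
  by_contra h3
  nlinarith [mul_pos h2 (not_le.1 h3), sq_nonneg (v 1), sq_nonneg (v 2), sq_nonneg (v 3)]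

theorem neg_zero' (x : H3) {v : Fin 4 → ℝ} (h : mink v x.1 = 0) (h0 : mink v v = 0) : v = 0 := by
  have h1 := neg_le x h
  rw [h0, mul_zero] at h1
  have a1 : v 1 = 0 := by nlinarith [sq_nonneg (v 1), sq_nonneg (v 2), sq_nonneg (v 3)]
  have a2 : v 2 = 0 := by nlinarith [sq_nonneg (v 1), sq_nonneg (v 2), sq_nonneg (v 3)]
  have a3 : v 3 = 0 := by nlinarith [sq_nonneg (v 1), sq_nonneg (v 2), sq_nonneg (v 3)]
  have a0 : v 0 = 0 := by
    simp only [mink, a1, a2, a3] at h0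
    nlinarith
  funext i
  fin_cases i <;> assumption

theorem one_le (x y : H3) : 1 ≤ mink x.1 y.1 := by
  obtain ⟨x, h1, h2⟩ := x
  obtain ⟨y, h3, h4⟩ := y
  simp only [mink] at h1 h3 ⊢
  have e : (x 0 * y 0) ^ 2 = (1 + (x 1 * y 1 + x 2 * y 2 + x 3 * y 3)) ^ 2 +
      ((x 1 - y 1) ^ 2 + (x 2 - y 2) ^ 2 + (x 3 - y 3) ^ 2 + (x 1 * y 2 - x 2 * y 1) ^ 2 +
        (x 1 * y 3 - x 3 * y 1) ^ 2 + (x 2 * y 3 - x 3 * y 2) ^ 2) := by
    linear_combination (y 0 * y 0) * h1 + (1 + x 1 * x 1 + x 2 * x 2 + x 3 * x 3) * h3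
  have := abs_le_of_sq_le_sq' (a := 1 + (x 1 * y 1 + x 2 * y 2 + x 3 * y 3)) (b := x 0 * y 0)
    (by rw [e]; exact le_add_of_nonneg_right (by positivity)) (mul_pos h2 h4).le
  linarith [this.2]

theorem cosh_hd (x y : H3) : cosh (hdist x y) = mink x.1 y.1 := cosh_arcosh (one_le x y)

theorem hd_nonneg (x y : H3) : 0 ≤ hdist x y := arcosh_nonneg (one_le x y)

theorem hd_self (x : H3) : hdist x x = 0 := by rw [hdist, x.2.1, arcosh_zero]

theorem hd_comm (x y : H3) : hdist x y = hdist y x := by rw [hdist, hdist, mink_symm]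

theorem hd_eq (x y : H3) (h : hdist x y = 0) : x = y := by
  have e : mink x.1 y.1 = 1 := by rw [← cosh_hd, h, cosh_zero]
  have h1 := x.2.1
  have h2 := y.2.1
  have := neg_zero' y (v := x.1 + (-1 : ℝ) • y.1)
    (by rw [mink_add_left, mink_smul_left, e, h2]; ring)
    (by
      simp only [mink_add_left, mink_add_right, mink_smul_left, mink_smul_right]
      rw [mink_symm y.1 x.1, e, h1, h2]; ring)
  rw [neg_one_smul, add_neg_eq_zero] at this
  exact Subtype.ext this

theorem hd_tri (x y z : H3) : hdist x z ≤ hdist x y + hdist y z := by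
  have h1 := x.2.1
  have h2 := y.2.1
  have h3 := z.2.1
  have k : ∀ t : ℝ, (1 - mink y.1 z.1 ^ 2) * (t * t) +
      (2 * (mink x.1 z.1 - mink x.1 y.1 * mink y.1 z.1)) * t + (1 - mink x.1 y.1 ^ 2) ≤ 0 := fun t => by
    have := neg_nonpos y (v := x.1 + (t • z.1 + (-(mink x.1 y.1) - t * mink y.1 z.1) • y.1)) (by
      simp only [mink_add_left, mink_smul_left]
      rw [mink_symm z.1 y.1, h2]; ring)
    simp only [mink_add_left, mink_add_right, mink_smul_left, mink_smul_right] at this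
    rw [mink_symm z.1 y.1, mink_symm z.1 x.1, mink_symm y.1 x.1, h1, h2, h3] at this
    linarith
  have d := discrim_le_zero_of_nonpos k
  rw [discrim, ← cosh_hd, ← cosh_hd, ← cosh_hd] at d
  have s1 := sinh_nonneg_iff.2 (hd_nonneg x y)
  have s2 := sinh_nonneg_iff.2 (hd_nonneg y z)
  have := abs_le_of_sq_le_sq' (a := cosh (hdist x z) - cosh (hdist x y) * cosh (hdist y z))
    (b := sinh (hdist x y) * sinh (hdist y z))
    (by rw [mul_pow, sinh_sq, sinh_sq]; linarith) (mul_nonneg s1 s2)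
  have c : cosh (hdist x z) ≤ cosh (hdist x y + hdist y z) := by rw [cosh_add]; linarith [this.2]
  rwa [cosh_le_cosh, abs_of_nonneg (hd_nonneg _ _),
    abs_of_nonneg (add_nonneg (hd_nonneg _ _) (hd_nonneg _ _))] at c

theorem hd_cont (x : H3) : Continuous (hdist x) :=
  continuousOn_arcosh.comp_continuous
    (mink_continuous.comp (continuous_const.prodMk continuous_subtype_val)) (one_le x)

/-- The base point. -/
def oo : H3 := ⟨![1, 0, 0, 0], by simp [mink], by simp⟩

theorem hd_ball (x : H3) (r : ℝ) : IsCompact {y | hdist x y ≤ r} := by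
  refine (H3_compact (cosh (hdist oo x + r))).of_isClosed_subset
    (isClosed_le (hd_cont x) continuous_const) fun y hy => ?_
  have e : y.1 0 = cosh (hdist oo y) := by rw [cosh_hd]; simp [mink, oo]
  have h := (hd_tri oo x y).trans (add_le_add le_rfl hy)
  show y.1 0 ≤ _
  rw [e, cosh_le_cosh, abs_of_nonneg (hd_nonneg _ _)]
  exact h.trans (le_abs_self _)

theorem hd_open (s : Set H3) : IsOpen s ↔ ∀ x ∈ s, ∃ ε > 0, ∀ y, hdist x y < ε → y ∈ s := by
  constructor
  · intro hs x hx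
    obtain ⟨a, ha, h⟩ := ((hd_ball x 1).diff hs).exists_forall_le' (hd_cont x).continuousOn (a := 0)
      fun b hb => (hd_nonneg x b).lt_of_ne fun e => hb.2 (hd_eq x b e.symm ▸ hx)
    refine ⟨min a 1, lt_min ha one_pos, fun y hy => by_contra fun h' => ?_⟩
    exact absurd (h y ⟨(hy.trans_le (min_le_right _ _)).le, h'⟩)
      (hy.trans_le (min_le_left _ _)).not_ge
  · intro h
    refine isOpen_iff_mem_nhds.2 fun x hx => ?_
    obtain ⟨ε, hε, h⟩ := h x hx
    exact Filter.mem_of_superset ((isOpen_lt (hd_cont x) continuous_const).mem_nhds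
      (by rwa [mem_ofPred_eq, hd_self])) h

/-- Hyperbolic space with the hyperbolic metric. -/
def HH : Type := H3

instance : TopologicalSpace HH := inferInstanceAs (TopologicalSpace H3)

noncomputable instance : MetricSpace HH :=
  MetricSpace.ofDistTopology hdist hd_self hd_comm hd_tri hd_open hd_eq

theorem HH_dist (x y : HH) : dist x y = hdist x y := rfl

theorem HH_proper : ProperSpace HH := ⟨fun x r => by
  have e : Metric.closedBall x r = {y | hdist x y ≤ r} := Set.ext fun y => by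
    rw [Metric.mem_closedBall, dist_comm]; rfl
  rw [e]
  exact hd_ball x r⟩

theorem HH_geo (x y : HH) : ∃ c, IsGeo c x y := by
  rcases (hd_nonneg x y).eq_or_lt with h | h
  · obtain rfl := hd_eq x y h.symm
    refine ⟨fun _ => x, rfl, rfl, fun s hs t ht => ?_⟩
    rw [dist_self] at hs ht ⊢
    rw [le_antisymm hs.2 hs.1, le_antisymm ht.2 ht.1, sub_self, abs_zero]
  have hs : sinh (hdist x y) ≠ 0 := (sinh_pos_iff.2 h).ne'
  have h1 : mink x.1 x.1 = 1 := x.2.1
  have h2 : mink y.1 y.1 = 1 := y.2.1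
  have h3 := (cosh_hd x y).symm
  obtain ⟨e, he⟩ : ∃ e, e = (sinh (hdist x y))⁻¹ • (y.1 + (-cosh (hdist x y)) • x.1) := ⟨_, rfl⟩
  have e1 : mink x.1 e = 0 := by
    rw [he, mink_smul_right, mink_add_right, mink_smul_right, h1, h3]; ring
  have e2 : mink e e = -1 := by
    rw [he]
    simp only [mink_add_left, mink_add_right, mink_smul_left, mink_smul_right]
    rw [mink_symm y.1 x.1, h1, h2, h3]
    field_simp
    rw [sinh_sq]; ring
  have m : ∀ s t, mink (cosh s • x.1 + sinh s • e) (cosh t • x.1 + sinh t • e) = cosh (s - t) :=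
    fun s t => by
    simp only [mink_add_left, mink_add_right, mink_smul_left, mink_smul_right]
    rw [mink_symm e x.1, h1, e1, e2, cosh_sub]; ring
  have m1 : ∀ s, mink (cosh s • x.1 + sinh s • e) (cosh s • x.1 + sinh s • e) = 1 := fun s => by
    rw [m, sub_self, cosh_zero]
  have p : ∀ s, 0 < (cosh s • x.1 + sinh s • e) 0 := fun s => by
    obtain ⟨v, hv⟩ : ∃ v, v = cosh s • x.1 + sinh s • e := ⟨_, rfl⟩
    have a : mink v v = 1 := hv ▸ m1 s
    have b : mink v x.1 = cosh s := by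
      rw [hv, mink_add_left, mink_smul_left, mink_smul_left, mink_symm e, h1, e1]; ring
    rw [← hv]
    by_contra h0
    have h4 : v 0 ≠ 0 := fun h4 => by
      simp only [mink, h4] at a
      nlinarith [mul_self_nonneg (v 1), mul_self_nonneg (v 2), mul_self_nonneg (v 3)]
    have := one_le ⟨(-1 : ℝ) • v, by rw [mink_smul_left, mink_smul_right, a]; ring, by
      simpa using (not_lt.1 h0).lt_of_ne h4⟩ x
    rw [mink_smul_left, b] at this
    linarith [cosh_pos s]
  refine ⟨fun s => ⟨_, m1 s, p s⟩, Subtype.ext (by simp), Subtype.ext ?_, fun s _ t _ => ?_⟩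
  · show cosh (hdist x y) • x.1 + sinh (hdist x y) • e = y.1
    rw [he, smul_smul, mul_inv_cancel₀ hs, one_smul, neg_smul]
    abel
  · show arcosh (mink _ _) = _
    rw [m, ← cosh_abs, arcosh_cosh (abs_nonneg _)]

theorem btw {x p y : H3} {s D : ℝ} (h1 : hdist x y = D) (h2 : hdist x p = s) (h3 : hdist p y = D - s) :
    sinh D • p.1 = sinh (D - s) • x.1 + sinh s • y.1 := by
  have a := cosh_hd x y
  have b := cosh_hd x p
  have c := cosh_hd p y
  rw [h1] at a
  rw [h2] at b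
  rw [h3] at c
  have i1 := sinh_add (D - s) s
  have i2 := sinh_sub D s
  have i3 := sinh_sub D (D - s)
  rw [sub_add_cancel] at i1
  rw [sub_sub_cancel] at i3
  obtain ⟨w, hw⟩ : ∃ w, w = sinh D • p.1 + ((-sinh (D - s)) • x.1 + (-sinh s) • y.1) := ⟨_, rfl⟩
  have w1 : mink w p.1 = 0 := by
    rw [hw]
    simp only [mink_add_left, mink_smul_left]
    rw [p.2.1, mink_symm y.1, ← b, ← c]; linarith
  have w2 : mink w x.1 = 0 := by
    rw [hw]
    simp only [mink_add_left, mink_smul_left]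
    rw [x.2.1, mink_symm y.1, mink_symm p.1, ← b, ← a]; linarith
  have w3 : mink w y.1 = 0 := by
    rw [hw]
    simp only [mink_add_left, mink_smul_left]
    rw [y.2.1, ← a, ← c]; linarith
  have w0 : mink w w = 0 := by
    nth_rewrite 2 [hw]
    simp only [mink_add_right, mink_smul_right, w1, w2, w3]
    ring
  have := neg_zero' x w2 w0
  rw [hw, neg_smul, neg_smul, ← neg_add, add_neg_eq_zero] at this
  exact this

theorem geo_btw {Y : Type} [MetricSpace Y] {φ : Y → H3} (hφ : ∀ a b, hdist (φ a) (φ b) = dist a b)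
    {c : ℝ → Y} {x y : Y} (h : IsGeo c x y) {s : ℝ} (hs : s ∈ Icc 0 (dist x y)) :
    sinh (dist x y) • (φ (c s)).1 = sinh (dist x y - s) • (φ x).1 + sinh s • (φ y).1 := by
  refine btw (hφ x y) ?_ ?_
  · have := h.2.2 0 (left_mem_Icc.2 dist_nonneg) s hs
    rw [h.1, zero_sub, abs_neg, abs_of_nonneg hs.1] at this
    rw [hφ, this]
  · have := h.2.2 s hs _ (right_mem_Icc.2 dist_nonneg)
    rw [h.2.1, abs_sub_comm, abs_of_nonneg (sub_nonneg.2 hs.2)] at this
    rw [hφ, this]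

theorem geo_cosh {Y : Type} [MetricSpace Y] {φ : Y → H3} (hφ : ∀ a b, hdist (φ a) (φ b) = dist a b)
    {c c' : ℝ → Y} {x y z : Y} (h : IsGeo c x y) (h' : IsGeo c' x z) {s t : ℝ}
    (hs : s ∈ Icc 0 (dist x y)) (ht : t ∈ Icc 0 (dist x z)) :
    sinh (dist x y) * sinh (dist x z) * cosh (dist (c s) (c' t)) =
      sinh (dist x y - s) * (sinh (dist x z - t) + sinh t * cosh (dist x z)) +
        sinh s * (sinh (dist x z - t) * cosh (dist x y) + sinh t * cosh (dist y z)) := by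
  have k : ∀ a b, cosh (dist a b) = mink (φ a).1 (φ b).1 := fun a b => by rw [← hφ, cosh_hd]
  rw [k, k, k, k, mul_assoc, ← mink_smul_right, ← mink_smul_left, geo_btw hφ h hs, geo_btw hφ h' ht]
  simp only [mink_add_left, mink_add_right, mink_smul_left, mink_smul_right]
  rw [(φ x).2.1, mink_symm (φ y).1 (φ x).1]
  ring

/-- The hyperbolic plane embeds in hyperbolic space. -/
noncomputable def emb (z : UpperHalfPlane) : H3 :=
  ⟨![(z.re ^ 2 + z.im ^ 2 + 1) / (2 * z.im), (z.re ^ 2 + z.im ^ 2 - 1) / (2 * z.im), z.re / z.im, 0],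
    by
      have := z.im_pos
      simp [mink]
      field_simp
      ring,
    by
      have := z.im_pos
      simp only [Matrix.cons_val_zero]
      positivity⟩

theorem emb_dist (z w : UpperHalfPlane) : hdist (emb z) (emb w) = dist z w := by
  rw [← arcosh_cosh (dist_nonneg (x := z) (y := w)), UpperHalfPlane.cosh_dist', hdist]
  congr 1
  have := z.im_pos
  have := w.im_pos
  simp [mink, emb]
  field_simp
  ring

theorem geo_zero {Y : Type} [MetricSpace Y] {c c' : ℝ → Y} {x y z : Y} (h : IsGeo c x y)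
    (h' : IsGeo c' x z) {t : ℝ} (ht : t ∈ Icc 0 (dist x z)) : dist (c 0) (c' t) = t := by
  have := h'.2.2 0 (left_mem_Icc.2 dist_nonneg) t ht
  rwa [h'.1, ← h.1, zero_sub, abs_neg, abs_of_nonneg ht.1] at this

theorem HH_cat : Cat UpperHalfPlane HH := by
  refine ⟨HH_geo, fun x y z c c' x' y' z' d d' h1 h2 h3 h4 e1 e2 e3 s hs t ht => ?_⟩
  have hs' : s ∈ Icc 0 (dist x' y') := e1 ▸ hs
  have ht' : t ∈ Icc 0 (dist x' z') := e2 ▸ ht
  rcases hs.1.eq_or_lt with rfl | s0
  · rw [geo_zero h1 h2 ht, geo_zero h3 h4 ht']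
  rcases ht.1.eq_or_lt with rfl | t0
  · rw [dist_comm, geo_zero h2 h1 hs, dist_comm, geo_zero h4 h3 hs']
  have a := geo_cosh (φ := fun x : HH => x) (fun _ _ => rfl) h1 h2 hs ht
  have b := geo_cosh emb_dist h3 h4 hs' ht'
  rw [e1, e2, e3, ← a] at b
  have := (mul_left_cancel₀ (mul_pos (sinh_pos_iff.2 (s0.trans_le hs.2))
    (sinh_pos_iff.2 (t0.trans_le ht.2))).ne' b).ge
  rwa [cosh_le_cosh, abs_of_nonneg dist_nonneg, abs_of_nonneg dist_nonneg] at this

theorem stewH {c : ℝ → HH} {x y : HH} (h : IsGeo c x y) {s : ℝ} (hs : s ∈ Icc 0 (dist x y))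
    (h0 : 0 < dist x y) (p : HH) :
    dist x y * dist p (c s) ^ 2 ≤
      (dist x y - s) * dist p x ^ 2 + s * dist p y ^ 2 - dist x y * s * (dist x y - s) := by
  refine stew h0 hs dist_nonneg dist_nonneg dist_nonneg ?_ ?_ ?_
  · rw [dist_comm x y, dist_comm p y, dist_comm p x, ← dist_comm p x]
    exact abs_dist_sub_le y p x
  · rw [add_comm]
    exact dist_triangle p x y
  · have k : ∀ a b : HH, cosh (dist a b) = mink a.1 b.1 := fun a b => cosh_hd a b
    have g : sinh (dist x y) • (c s).1 = sinh (dist x y - s) • x.1 + sinh s • y.1 :=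
      geo_btw (φ := fun x : HH => x) (fun _ _ => rfl) h hs
    rw [k, k, k, ← mink_smul_right, g, mink_add_right, mink_smul_right, mink_smul_right]

theorem HH_cat0 : Cat ℂ HH := by
  refine ⟨HH_geo, fun x y z c c' x' y' z' d d' h1 h2 h3 h4 e1 e2 e3 s hs t ht => ?_⟩
  have hs' : s ∈ Icc 0 (dist x' y') := e1 ▸ hs
  have ht' : t ∈ Icc 0 (dist x' z') := e2 ▸ ht
  rcases hs.1.eq_or_lt with rfl | s0
  · rw [geo_zero h1 h2 ht, geo_zero h3 h4 ht']
  rcases ht.1.eq_or_lt with rfl | t0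
  · rw [dist_comm, geo_zero h2 h1 hs, dist_comm, geo_zero h4 h3 hs']
  have a0 := s0.trans_le hs.2
  have b0 := t0.trans_le ht.2
  have a := stewH h1 hs a0 (c' t)
  have b := stewH h2 ht b0 y
  have a' := stewC h3 hs' (d' t)
  have b' := stewC h4 ht' y'
  rw [dist_comm _ x, (geo_d h2 ht).1, dist_comm (c' t), dist_comm (c' t)] at a
  rw [dist_comm _ x', (geo_d h4 ht').1, dist_comm (d' t), dist_comm (d' t), e1] at a'
  rw [dist_comm y' x', e1, e2, e3] at b'
  rw [dist_comm y x, ← b'] at b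
  have k := mul_le_mul_of_nonneg_left (le_of_mul_le_mul_left b b0) s0.le
  exact abs_le_of_sq_le_sq' (le_of_mul_le_mul_left (by linarith) a0) dist_nonneg |>.2

end Vale.Agent.P172
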