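import Vale.Agent.P172.Defs

/-! Real inequalities behind the CAT(0) property of hyperbolic space. -/

namespace Vale.Agent.P172
open Set Real

theorem sinh_le {u : ℝ} (hu : 0 ≤ u) : sinh u ≤ u * cosh u := by
  have d : ∀ t, HasDerivAt (fun t => t * cosh t - sinh t) (t * sinh t) t := fun t =>
    (((hasDerivAt_id' t).mul (hasDerivAt_cosh t)).sub (hasDerivAt_sinh t)).congr_deriv (by ring)
  have m := monotone_of_deriv_nonneg (fun t => (d t).differentiableAt) fun t => by
    rw [(d t).deriv]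
    rcases le_total 0 t with h | h
    · exact mul_nonneg h (sinh_nonneg_iff.2 h)
    · exact mul_nonneg_of_nonpos_of_nonpos h (sinh_nonpos_iff.2 h)
  have := m hu
  simp only [zero_mul, sinh_zero, sub_zero] at this
  linarith

theorem cvx {R : ℝ} (hR : 1 ≤ R) :
    ConvexOn ℝ univ fun w => arcosh (R * cosh w) ^ 2 - w ^ 2 := by
  rcases hR.eq_or_lt with rfl | hR
  · have e : (fun w => arcosh (1 * cosh w) ^ 2 - w ^ 2) = fun _ => 0 := funext fun w => by
      rw [one_mul, ← cosh_abs, arcosh_cosh (abs_nonneg _), sq_abs, sub_self]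
    rw [e]
    exact convexOn_const _ convex_univ
  have g : ∀ w, 1 < R * cosh w := fun w => by nlinarith [one_le_cosh w]
  obtain ⟨u, hu⟩ : ∃ u : ℝ → ℝ, u = fun w => arcosh (R * cosh w) := ⟨_, rfl⟩
  have c : ∀ w, cosh (u w) = R * cosh w := fun w => by rw [hu]; exact cosh_arcosh (g w).le
  have p : ∀ w, 0 < u w := fun w => by rw [hu]; exact arcosh_pos (g w)
  have s : ∀ w, 0 < sinh (u w) := fun w => sinh_pos_iff.2 (p w)
  have d : ∀ w, HasDerivAt u (R * sinh w / sinh (u w)) w := fun w => by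
    rw [hu]
    refine ((hasDerivAt_arcosh (g w)).comp w ((hasDerivAt_cosh w).const_mul R)).congr_deriv ?_
    rw [sinh_arcosh (g w).le]; ring
  have e : (fun w => arcosh (R * cosh w) ^ 2 - w ^ 2) = fun w => u w * u w - w * w := by
    rw [hu]; funext w; ring
  have d1 : ∀ w, HasDerivAt (fun w => u w * u w - w * w)
      (2 * (u w * (R * sinh w) / sinh (u w) - w)) w := fun w =>
    (((d w).mul (d w)).sub ((hasDerivAt_id' w).mul (hasDerivAt_id' w))).congr_deriv (by ring)
  have d2 : ∀ w, HasDerivAt (fun w => 2 * (u w * (R * sinh w) / sinh (u w) - w))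
      (2 * ((u w * cosh (u w) - sinh (u w)) * (R ^ 2 - 1) / sinh (u w) ^ 3)) w := fun w => by
    refine (((((d w).mul ((hasDerivAt_sinh w).const_mul R)).div (d w).sinh (s w).ne').sub
      (hasDerivAt_id' w)).const_mul 2).congr_deriv ?_
    have h1 := s w
    have h2 := c w
    have h3 := cosh_sq w
    have h4 := cosh_sq (u w)
    have h5 : R ^ 2 - 1 = sinh (u w) ^ 2 - (R * sinh w) ^ 2 := by
      rw [h2] at h4
      linear_combination h4 - R ^ 2 * h3
    rw [h5]
    simp only [Pi.mul_apply]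
    rw [← h2]
    field_simp
    ring
  rw [e]
  refine Monotone.convexOn_univ_of_deriv (fun w => (d1 w).differentiableAt) ?_
  rw [funext fun w => (d1 w).deriv]
  refine monotone_of_deriv_nonneg (fun w => (d2 w).differentiableAt) fun w => ?_
  rw [(d2 w).deriv]
  have h1 := s w
  have h2 := sub_nonneg.2 (sinh_le (p w).le)
  have h3 : 0 ≤ R ^ 2 - 1 := by nlinarith
  positivity

theorem stew {a u v r s : ℝ} (ha : 0 < a) (hs : s ∈ Icc 0 a) (hu : 0 ≤ u) (hv : 0 ≤ v) (hr : 0 ≤ r)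
    (h1 : |a - u| ≤ v) (h2 : v ≤ a + u)
    (h : sinh a * cosh r = sinh (a - s) * cosh u + sinh s * cosh v) :
    a * r ^ 2 ≤ (a - s) * u ^ 2 + s * v ^ 2 - a * s * (a - s) := by
  have sa := sinh_pos_iff.2 ha
  obtain ⟨B, hB⟩ : ∃ B, sinh a * B = cosh v - cosh a * cosh u := ⟨_, mul_div_cancel₀ _ sa.ne'⟩
  have c1 : cosh (a - u) ≤ cosh v := cosh_le_cosh.2 (h1.trans (le_abs_self _))
  have c2 : cosh v ≤ cosh (a + u) := cosh_le_cosh.2 (by
    rw [abs_of_nonneg hv]; exact h2.trans (le_abs_self _))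
  rw [cosh_sub] at c1
  rw [cosh_add] at c2
  have b : B ^ 2 ≤ sinh u ^ 2 := sq_le_sq' (le_of_mul_le_mul_left (by linarith) sa)
    (le_of_mul_le_mul_left (by linarith) sa)
  have k : 1 ≤ cosh u ^ 2 - B ^ 2 := by linarith [cosh_sq u]
  obtain ⟨R, R1, R2⟩ : ∃ R, 1 ≤ R ∧ R ^ 2 = cosh u ^ 2 - B ^ 2 :=
    ⟨√_, one_le_sqrt.2 k, sq_sqrt (by linarith)⟩
  obtain ⟨o, ho⟩ : ∃ o, R * sinh o = B := ⟨arsinh (B / R), by
    rw [sinh_arsinh, mul_div_cancel₀ _ (by linarith)]⟩
  have hc : R * cosh o = cosh u := (pow_left_inj₀ (by have := cosh_pos o; positivity)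
    (cosh_pos u).le two_ne_zero).1 (by rw [mul_pow, cosh_sq, mul_add, ← mul_pow, ho, R2]; ring)
  have e1 : arcosh (R * cosh o) = u := by rw [hc, arcosh_cosh hu]
  have e2 : arcosh (R * cosh (a + o)) = v := by
    rw [← arcosh_cosh hv, cosh_add]
    congr 1
    linear_combination cosh a * hc + sinh a * ho + hB
  have e3 : arcosh (R * cosh (s + o)) = r := by
    rw [← arcosh_cosh hr, cosh_add]
    congr 1
    refine mul_left_cancel₀ sa.ne' ?_
    rw [h, sinh_sub]
    linear_combination sinh a * cosh s * hc + sinh a * sinh s * ho + sinh s * hB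
  have := (cvx R1).2 (mem_univ o) (mem_univ (a + o)) (div_nonneg (sub_nonneg.2 hs.2) ha.le)
    (div_nonneg hs.1 ha.le) (by field_simp; ring)
  have e4 : ((a - s) / a) • o + (s / a) • (a + o) = s + o := by
    simp only [smul_eq_mul]; field_simp; ring
  rw [e4] at this
  simp only [e1, e2, e3, smul_eq_mul] at this
  have t := mul_le_mul_of_nonneg_left this ha.le
  rw [mul_add, ← mul_assoc, ← mul_assoc, mul_div_cancel₀ _ ha.ne', mul_div_cancel₀ _ ha.ne'] at t
  linarith

theorem geo_d {Y : Type} [MetricSpace Y] {c : ℝ → Y} {x y : Y} (h : IsGeo c x y) {s : ℝ}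
    (hs : s ∈ Icc 0 (dist x y)) : dist x (c s) = s ∧ dist (c s) y = dist x y - s := by
  have a := h.2.2 0 (left_mem_Icc.2 dist_nonneg) s hs
  have b := h.2.2 s hs _ (right_mem_Icc.2 dist_nonneg)
  rw [h.1, zero_sub, abs_neg, abs_of_nonneg hs.1] at a
  rw [h.2.1, abs_sub_comm, abs_of_nonneg (sub_nonneg.2 hs.2)] at b
  exact ⟨a, b⟩

theorem stewC {c : ℝ → ℂ} {x y : ℂ} (h : IsGeo c x y) {s : ℝ} (hs : s ∈ Icc 0 (dist x y)) (p : ℂ) :
    dist x y * dist p (c s) ^ 2 =
      (dist x y - s) * dist p x ^ 2 + s * dist p y ^ 2 - dist x y * s * (dist x y - s) := by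
  have q : ∀ a b : ℂ, dist a b ^ 2 = (a.re - b.re) ^ 2 + (a.im - b.im) ^ 2 := fun a b => by
    rw [Complex.dist_eq_re_im, sq_sqrt (by positivity)]
  obtain ⟨a, b⟩ := geo_d h hs
  have h1 := q x (c s)
  have h2 := q (c s) y
  have h3 := q x y
  rw [a] at h1
  rw [b] at h2
  rw [q p, q p, q p]
  generalize dist x y = D at *
  have z : ((D - s) * (x.re - (c s).re) - s * ((c s).re - y.re)) ^ 2 +
      ((D - s) * (x.im - (c s).im) - s * ((c s).im - y.im)) ^ 2 = 0 := by
    linear_combination (-(D - s) ^ 2 - s * (D - s)) * h1 + (-s ^ 2 - s * (D - s)) * h2 +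
      s * (D - s) * h3
  obtain ⟨z1, z2⟩ := (add_eq_zero_iff_of_nonneg (sq_nonneg _) (sq_nonneg _)).1 z
  rw [sq_eq_zero_iff] at z1 z2
  linear_combination (D - s) * h1 + s * h2 + 2 * (p.re - (c s).re) * z1 + 2 * (p.im - (c s).im) * z2

end Vale.Agent.P172
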