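import Mathlib

namespace Vale.Agent.P172

/-- `c`, restricted to `[0, d(x,y)]`, is a geodesic segment from `x` to `y`. -/
def IsGeo {X : Type} [MetricSpace X] (c : ℝ → X) (x y : X) : Prop :=
  c 0 = x ∧ c (dist x y) = y ∧
    ∀ s ∈ Set.Icc 0 (dist x y), ∀ t ∈ Set.Icc 0 (dist x y), dist (c s) (c t) = |s - t|

/-- `X` is geodesic and its geodesic triangles are no fatter than their comparison triangles in the
model plane `M`. -/
def Cat (M X : Type) [MetricSpace M] [MetricSpace X] : Prop :=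
  (∀ x y : X, ∃ c, IsGeo c x y) ∧
  ∀ (x y z : X) (c c' : ℝ → X) (x' y' z' : M) (d d' : ℝ → M),
    IsGeo c x y → IsGeo c' x z → IsGeo d x' y' → IsGeo d' x' z' →
    dist x' y' = dist x y → dist x' z' = dist x z → dist y' z' = dist y z →
    ∀ s ∈ Set.Icc 0 (dist x y), ∀ t ∈ Set.Icc 0 (dist x z),
      dist (c s) (c' t) ≤ dist (d s) (d' t)

end Vale.Agent.P172
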